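import Vale.Agent.P181.H965.Defs

/-!
# Binary kernel theorem (P181, block ZER): the system `p_l` (`l ∈ A`), `X_l` (`l ∉ A`) has no
common zero but the origin.
-/

namespace Vale.Agent.P181.H648

open Polynomial

section S

variable {K : Type} [Field K] {σ : Type} [Fintype σ]

/-- `S y g = ∑ j, ∫_0^{y_j} g`. -/
noncomputable def S (y : σ → K) : K[X] →ₗ[K] K :=
  Polynomial.lsum (fun n => (((n : K) + 1)⁻¹ * ∑ j, y j ^ (n + 1)) • (LinearMap.id : K →ₗ[K] K))

theorem S_monomial (y : σ → K) (n : ℕ) (a : K) :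
    S y (monomial n a) = a * (((n : K) + 1)⁻¹ * ∑ j, y j ^ (n + 1)) := by
  simp [S, Polynomial.lsum_apply, Polynomial.sum_monomial_index, mul_comm]

theorem S_derivative [CharZero K] (y : σ → K) (F : K[X]) :
    S y (derivative F) = ∑ j, (eval (y j) F - eval 0 F) := by
  induction F using Polynomial.induction_on' with
  | add p r hp hr =>
    rw [derivative_add, map_add, hp, hr, ← Finset.sum_add_distrib]
    refine Finset.sum_congr rfl fun j _ => ?_
    simp only [eval_add]; ring
  | monomial n a =>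
    cases n with
    | zero => simp
    | succ n =>
      rw [derivative_monomial, Nat.add_sub_cancel, S_monomial]
      have h : ((n : K) + 1) ≠ 0 := by
        have := Nat.cast_add_one_ne_zero (R := K) n
        exact this
      simp only [eval_monomial, ne_eq, Nat.add_eq_zero_iff, one_ne_zero, and_false,
        not_false_eq_true, zero_pow, mul_zero, sub_zero]
      rw [← Finset.mul_sum]
      push_cast
      field_simp

end S

section U

variable {K : Type} [Field K] {σ : Type} [Fintype σ]

/-- `U(u) = prod_j (u - y_j)^q`. -/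
noncomputable def U (y : σ → K) (q : ℕ) : K[X] := ∏ j, (X - C (y j)) ^ q

theorem eval_U (y : σ → K) {q : ℕ} (hq : 1 ≤ q) (l : σ) : eval (y l) (U y q) = 0 := by
  rw [U, eval_prod]
  exact Finset.prod_eq_zero (Finset.mem_univ l) (by simp; omega)

variable [DecidableEq σ]

/-- `Q_l(u) = U(u) / (u - y_l)`. -/
noncomputable def Qy (y : σ → K) (q : ℕ) (l : σ) : K[X] :=
  ∏ j, (X - C (y j)) ^ (q - if j = l then 1 else 0)

theorem Qy_eq (y : σ → K) (q : ℕ) (l : σ) :
    Qy y q l = (∏ j ∈ Finset.univ.erase l, (X - C (y j)) ^ q) * (X - C (y l)) ^ (q - 1) := by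
  unfold Qy
  rw [← Finset.prod_erase_mul _ _ (Finset.mem_univ l)]
  congr 1
  · refine Finset.prod_congr rfl fun j hj => ?_
    rw [if_neg (Finset.ne_of_mem_erase hj), Nat.sub_zero]
  · rw [if_pos rfl]

theorem mul_Qy (y : σ → K) {q : ℕ} (hq : 1 ≤ q) (l : σ) :
    (X - C (y l)) * Qy y q l = U y q := by
  rw [Qy_eq, U, ← Finset.prod_erase_mul _ _ (Finset.mem_univ l)]
  obtain ⟨k, rfl⟩ : ∃ k, q = k + 1 := ⟨q - 1, by omega⟩
  rw [Nat.add_sub_cancel, pow_succ (X - C (y l)) k]; ring

theorem derivative_U (y : σ → K) (q : ℕ) :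
    derivative (U y q) = C (q : K) * ∑ l, Qy y q l := by
  rw [U, derivative_prod_finset, Finset.mul_sum]
  refine Finset.sum_congr rfl fun l _ => ?_
  rw [Qy_eq, derivative_X_sub_C_pow]
  ring

end U

section core

variable {K : Type} [Field K] [CharZero K] [DecidableEq K] {σ : Type} [Fintype σ] [DecidableEq σ]

/-- number of indices with value `z` -/
def mm (y : σ → K) (z : K) : ℕ := (Finset.univ.filter fun j => y j = z).card

/-- the set of the values of `y` -/
def ZZ (y : σ → K) : Finset K := Finset.univ.image y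

omit [Field K] [CharZero K] [DecidableEq σ] in
theorem mem_ZZ (y : σ → K) (l : σ) : y l ∈ ZZ y := Finset.mem_image_of_mem _ (Finset.mem_univ _)

omit [Field K] [CharZero K] [DecidableEq σ] in
theorem mm_pos {y : σ → K} {z : K} (hz : z ∈ ZZ y) : 1 ≤ mm y z := by
  obtain ⟨l, -, rfl⟩ := Finset.mem_image.mp hz
  exact Finset.card_pos.mpr ⟨l, by simp⟩

/-- `w = prod_z (u - z)^(q m_z - 1)` -/
noncomputable def ww (y : σ → K) (q : ℕ) : K[X] := ∏ z ∈ ZZ y, (X - C z) ^ (q * mm y z - 1)

omit [CharZero K] [DecidableEq σ] in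
theorem ww_monic (y : σ → K) (q : ℕ) : (ww y q).Monic :=
  monic_prod_of_monic _ _ fun z _ => (monic_X_sub_C z).pow _

omit [CharZero K] [DecidableEq σ] in
theorem U_eq (y : σ → K) (q : ℕ) : U y q = ∏ z ∈ ZZ y, (X - C z) ^ (q * mm y z) := by
  rw [U, ← Finset.prod_fiberwise_of_maps_to (s := Finset.univ) (t := ZZ y) (g := y)
    (fun l _ => mem_ZZ y l)]
  refine Finset.prod_congr rfl fun z _ => ?_
  rw [Finset.prod_congr rfl (g := fun _ => (X - C z) ^ q)
    (fun j hj => by rw [(Finset.mem_filter.mp hj).2]), Finset.prod_const, ← pow_mul]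
  rfl

theorem U_eq' (y : σ → K) {q : ℕ} (hq : 1 ≤ q) : U y q = ww y q * ∏ z ∈ ZZ y, (X - C z) := by
  rw [U_eq, ww, ← Finset.prod_mul_distrib]
  refine Finset.prod_congr rfl fun z hz => ?_
  have h : 1 ≤ q * mm y z := Nat.mul_pos hq (mm_pos hz)
  rw [← pow_succ, Nat.sub_add_cancel h]

theorem Qy_eq' (y : σ → K) {q : ℕ} (hq : 1 ≤ q) (l : σ) :
    Qy y q l = ww y q * ∏ z ∈ (ZZ y).erase (y l), (X - C z) := by
  have h : (X - C (y l)) ≠ 0 := X_sub_C_ne_zero _
  apply mul_left_cancel₀ h
  rw [mul_Qy y hq, U_eq' y hq, ← Finset.mul_prod_erase _ _ (mem_ZZ y l)]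
  ring

/-- the step with Lagrange interpolation -/
theorem S_lagrange {y : σ → K} {q : ℕ} (hq : 1 ≤ q) (h : ∀ l, S y (Qy y q l) = 0) (g : K[X])
    (hg : g.degree < (ZZ y).card) : S y (ww y q * g) = 0 := by
  rw [Lagrange.eq_interpolate (v := (id : K → K)) (s := ZZ y) (f := g)
    (Set.injOn_id _) hg, Lagrange.interpolate_apply, Finset.mul_sum, map_sum]
  refine Finset.sum_eq_zero fun z hz => ?_
  obtain ⟨l, -, rfl⟩ := Finset.mem_image.mp hz
  have h1 : Lagrange.basis (ZZ y) (id : K → K) (y l) =
      C (∏ j ∈ (ZZ y).erase (y l), (y l - j)⁻¹) * ∏ z ∈ (ZZ y).erase (y l), (X - C z) := by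
    rw [Lagrange.basis, map_prod, ← Finset.prod_mul_distrib]
    rfl
  have h2 : ww y q * (C (eval (id (y l)) g) * Lagrange.basis (ZZ y) id (y l)) =
      ((eval (id (y l)) g) * (∏ j ∈ (ZZ y).erase (y l), (y l - j)⁻¹)) • Qy y q l := by
    rw [h1, Qy_eq' y hq, smul_eq_C_mul, map_mul]
    ring
  rw [h2, map_smul, h, smul_zero]

theorem S_all {y : σ → K} {q : ℕ} (hq : 1 ≤ q) (h : ∀ l, S y (Qy y q l) = 0)
    (h0 : ∃ l, y l = 0) (g : K[X]) : S y (ww y q * g) = 0 := by
  obtain ⟨l0, hl0⟩ := h0
  have hU0 : eval 0 (U y q) = 0 := by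
    have := eval_U y hq l0
    rwa [hl0] at this
  have hcard : 1 ≤ (ZZ y).card := Finset.card_pos.mpr ⟨_, mem_ZZ y l0⟩
  -- the derivative of `U`
  set hh : K[X] := C (q : K) * ∑ l, ∏ z ∈ (ZZ y).erase (y l), (X - C z) with hhd
  have hder : derivative (U y q) = ww y q * hh := by
    rw [derivative_U, hhd, Finset.mul_sum, Finset.mul_sum, Finset.mul_sum]
    refine Finset.sum_congr rfl fun l _ => ?_
    rw [Qy_eq' y hq]; ring
  have hUm : (U y q).Monic := monic_prod_of_monic _ _ fun z _ => (monic_X_sub_C _).pow _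
  have hrm : (∏ z ∈ ZZ y, (X - C z) : K[X]).Monic :=
    monic_prod_of_monic _ _ fun z _ => monic_X_sub_C z
  have hrd : (∏ z ∈ ZZ y, (X - C z) : K[X]).natDegree = (ZZ y).card := by
    rw [natDegree_prod_of_monic _ _ fun z _ => monic_X_sub_C z]
    simp
  have hUd : (U y q).natDegree = (ww y q).natDegree + (ZZ y).card := by
    rw [U_eq' y hq, (ww_monic y q).natDegree_mul hrm, hrd]
  -- strong induction on the degree
  induction hN : g.natDegree using Nat.strong_induction_on generalizing g with
  | _ N ih =>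
    by_cases hg : g.degree < (ZZ y).card
    · exact S_lagrange hq h g hg
    · push Not at hg
      have hg0 : g ≠ 0 := by
        rintro rfl
        simp at hg
      have hNc : (ZZ y).card ≤ N := by
        rw [degree_eq_natDegree hg0, hN] at hg
        exact_mod_cast hg
      set n := N + 1 - (ZZ y).card with hn
      have hn1 : 1 ≤ n := by omega
      set gn : K[X] := hh * X ^ n + (∏ z ∈ ZZ y, (X - C z)) * (C (n : K) * X ^ (n - 1)) with hgn
      have hgnw : ww y q * gn = derivative (U y q * X ^ n) := by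
        rw [derivative_mul, hder, derivative_X_pow, hgn, U_eq' y hq]
        ring
      have hSgn : S y (ww y q * gn) = 0 := by
        rw [hgnw, S_derivative]
        refine Finset.sum_eq_zero fun j _ => ?_
        rw [eval_mul, eval_mul, eval_U y hq, hU0]; simp
      have hUn : (U y q * X ^ n).natDegree = (ww y q).natDegree + N + 1 := by
        rw [hUm.natDegree_mul (monic_X_pow n), hUd, natDegree_X_pow]
        omega
      have hdd : (derivative (U y q * X ^ n)).degree = (((ww y q).natDegree + N : ℕ) : WithBot ℕ) := by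
        rw [degree_derivative (by omega), hUn]
        simp
      have hne : derivative (U y q * X ^ n) ≠ 0 := by
        intro h0
        rw [h0, degree_zero] at hdd
        exact WithBot.natCast_ne_bot _ hdd.symm
      have hgn0 : gn ≠ 0 := by
        rintro h0
        rw [← hgnw, h0, mul_zero] at hne
        exact hne rfl
      have hgnd : gn.natDegree = N := by
        have h1 : (ww y q * gn).natDegree = (ww y q).natDegree + N := by
          rw [hgnw]
          exact natDegree_eq_of_degree_eq_some hdd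
        rw [(ww_monic y q).natDegree_mul' hgn0] at h1
        omega
      set c : K := g.leadingCoeff / gn.leadingCoeff with hc
      have hlc : gn.leadingCoeff ≠ 0 := leadingCoeff_ne_zero.mpr hgn0
      have hc0 : c ≠ 0 := div_ne_zero (leadingCoeff_ne_zero.mpr hg0) hlc
      have hsplit : g = (g - C c * gn) + C c * gn := by ring
      have hS : S y (ww y q * g) = S y (ww y q * (g - C c * gn)) := by
        conv_lhs => rw [hsplit]
        rw [mul_add, map_add]
        have : ww y q * (C c * gn) = c • (ww y q * gn) := by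
          rw [smul_eq_C_mul]; ring
        rw [this, map_smul, hSgn, smul_zero, add_zero]
      rw [hS]
      have hdeg : (g - C c * gn).degree < g.degree := by
        refine degree_sub_lt_left ?_ hg0 ?_
        · rw [degree_C_mul hc0, degree_eq_natDegree hg0, degree_eq_natDegree hgn0, hgnd, hN]
        · rw [leadingCoeff_mul, leadingCoeff_C, hc, div_mul_cancel₀ _ hlc]
      by_cases hz : g - C c * gn = 0
      · rw [hz, mul_zero, map_zero]
      · refine ih _ ?_ _ rfl
        rw [degree_eq_natDegree hz, degree_eq_natDegree hg0, hN] at hdeg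
        exact_mod_cast hdeg

/-- If all the integrals vanish and one root is `0`, all roots are `0`. -/
theorem roots_zero {y : σ → K} {q : ℕ} (hq : 1 ≤ q) (h : ∀ l, S y (Qy y q l) = 0)
    (h0 : ∃ l, y l = 0) (l : σ) : y l = 0 := by
  by_contra hl
  have hall := S_all hq h h0
  obtain ⟨l0, hl0⟩ := h0
  -- split off the root `y l`
  set z0 := y l with hz0
  have hz0m : z0 ∈ ZZ y := mem_ZZ y l
  set M := q * mm y z0 with hM
  set P0 : K[X] := ∏ z ∈ (ZZ y).erase z0, (X - C z) ^ (q * mm y z) with hP0
  have hcop : IsCoprime ((X - C z0 : K[X]) ^ M) P0 := by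
    refine IsCoprime.pow_left ?_
    refine IsCoprime.prod_right fun z hz => ?_
    refine IsCoprime.pow_right ?_
    exact isCoprime_X_sub_C_of_isUnit_sub
      (sub_ne_zero.mpr (Finset.ne_of_mem_erase hz).symm).isUnit
  obtain ⟨a, b, hab⟩ := hcop
  set ψ : K[X] := b * P0 with hψ
  have hψ' : ψ = 1 - a * (X - C z0) ^ M := by rw [hψ, ← hab]; ring
  have hdvd : ww y q ∣ derivative ψ := by
    rw [ww]
    refine Finset.prod_dvd_of_coprime ?_ ?_
    · intro z _ z' _ hzz
      exact IsCoprime.pow (isCoprime_X_sub_C_of_isUnit_sub (sub_ne_zero.mpr hzz).isUnit)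
    · intro z hz
      by_cases hzz : z = z0
      · subst hzz
        rw [hψ', derivative_sub, derivative_one, zero_sub, dvd_neg, derivative_mul]
        refine dvd_add (Dvd.dvd.mul_left (pow_dvd_pow _ (Nat.sub_le _ _)) _) ?_
        rw [derivative_X_sub_C_pow]
        exact Dvd.dvd.mul_left (Dvd.intro_left _ rfl) _
      · have hze : z ∈ (ZZ y).erase z0 := Finset.mem_erase.mpr ⟨hzz, hz⟩
        obtain ⟨P1, hP1⟩ : (X - C z) ^ (q * mm y z) ∣ ψ :=
          Dvd.dvd.mul_left (Finset.dvd_prod_of_mem _ hze) _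
        rw [hP1, derivative_mul, derivative_X_sub_C_pow]
        refine dvd_add ?_ (Dvd.dvd.mul_right (pow_dvd_pow _ (Nat.sub_le _ _)) _)
        exact Dvd.dvd.mul_right (Dvd.intro_left _ rfl) _
  obtain ⟨g, hg⟩ := hdvd
  have hS := hall g
  rw [← hg, S_derivative] at hS
  -- the values of `ψ`
  have hM1 : 1 ≤ M := Nat.mul_pos hq (mm_pos hz0m)
  have hev : ∀ z ∈ ZZ y, eval z ψ = if z = z0 then 1 else 0 := by
    intro z hz
    by_cases hzz : z = z0
    · rw [if_pos hzz, hψ', hzz]
      simp [show M ≠ 0 by omega]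
    · rw [if_neg hzz, hψ, eval_mul, hP0, eval_prod,
        Finset.prod_eq_zero (Finset.mem_erase.mpr ⟨hzz, hz⟩), mul_zero]
      have : q * mm y z ≠ 0 := by
        have := Nat.mul_pos hq (mm_pos hz)
        omega
      simp [this]
  have h00 : eval 0 ψ = 0 := by
    have := hev 0 (by rw [← hl0]; exact mem_ZZ y l0)
    rw [this, if_neg (Ne.symm hl)]
  have hsum : ∑ j, (eval (y j) ψ - eval 0 ψ) = (mm y z0 : K) := by
    rw [h00, Finset.sum_congr rfl (fun j _ => by rw [sub_zero, hev _ (mem_ZZ y j)]),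
      Finset.sum_boole]
    rfl
  rw [hsum] at hS
  have : mm y z0 = 0 := by exact_mod_cast hS
  have h1 := mm_pos hz0m
  omega

/-- No common zero but the origin. -/
theorem no_common_zero {y : σ → K} {q : ℕ} (hq : 1 ≤ q) (A : Set σ)
    (hA : ∀ l ∈ A, S y (Qy y q l) = 0) (hB : ∀ l, l ∉ A → y l = 0) (l : σ) : y l = 0 := by
  have hsum : (q : K) * ∑ l, S y (Qy y q l) = - (Fintype.card σ * eval 0 (U y q)) := by
    have h1 := S_derivative y (U y q)
    rw [derivative_U] at h1
    have h2 : S y (C (q : K) * ∑ l, Qy y q l) = (q : K) * ∑ l, S y (Qy y q l) := by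
      rw [← smul_eq_C_mul, map_smul, map_sum, smul_eq_mul]
    rw [← h2, h1]
    rw [Finset.sum_congr rfl (fun j _ => by rw [eval_U y hq])]
    simp
  have hq0 : (q : K) ≠ 0 := by
    have : q ≠ 0 := by omega
    exact_mod_cast this
  have hd0 : (Fintype.card σ : K) ≠ 0 := by
    have : Nonempty σ := ⟨l⟩
    have : Fintype.card σ ≠ 0 := Fintype.card_ne_zero
    exact_mod_cast this
  -- `0` is a root
  have h0 : ∃ l, y l = 0 := by
    by_cases hAu : ∀ l, l ∈ A
    · rw [Finset.sum_eq_zero (fun l _ => hA l (hAu l)), mul_zero] at hsum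
      have h3 : eval 0 (U y q) = 0 := by
        have := mul_eq_zero.mp (neg_eq_zero.mp hsum.symm)
        tauto
      rw [U, eval_prod, Finset.prod_eq_zero_iff] at h3
      obtain ⟨j, -, hj⟩ := h3
      rw [eval_pow, eval_sub, eval_X, eval_C, zero_sub] at hj
      exact ⟨j, neg_eq_zero.mp (pow_eq_zero_iff (by omega) |>.mp hj)⟩
    · push Not at hAu
      obtain ⟨l, hl⟩ := hAu
      exact ⟨l, hB l hl⟩
  refine roots_zero hq (fun l => ?_) h0 l
  by_cases hl : l ∈ A
  · exact hA l hl
  · have hU0 : eval 0 (U y q) = 0 := by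
      have := eval_U y hq l
      rwa [hB l hl] at this
    rw [hU0, mul_zero, neg_zero] at hsum
    have hsum' : ∑ l, S y (Qy y q l) = 0 := (mul_eq_zero.mp hsum).resolve_left hq0
    -- all the `Q_l'`, `l' ∉ A`, are equal
    classical
    have heq : ∀ l', l' ∉ A → Qy y q l' = Qy y q l := by
      intro l' hl'
      rw [Qy_eq' y hq, Qy_eq' y hq, hB l hl, hB l' hl']
    rw [Finset.sum_congr rfl (g := fun l' => if l' ∈ A then 0 else S y (Qy y q l))
      (fun l' _ => by
        by_cases hl' : l' ∈ A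
        · rw [if_pos hl', hA l' hl']
        · rw [if_neg hl', heq l' hl'])] at hsum'
    rw [Finset.sum_ite, Finset.sum_const_zero, zero_add, Finset.sum_const, nsmul_eq_mul] at hsum'
    refine (mul_eq_zero.mp hsum').resolve_left ?_
    have : (Finset.univ.filter fun l' => l' ∉ A).card ≠ 0 :=
      Finset.card_ne_zero.mpr ⟨l, by simp [hl]⟩
    exact_mod_cast this

end core

section main

variable {K : Type} [Field K] {σ : Type} [Fintype σ] [DecidableEq σ]
variable {L : Type} [Field L] [Algebra K L]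

theorem map_Qp (y : σ → L) (q : ℕ) (l : σ) :
    (H965.Qp K q l).map (MvPolynomial.aeval (R := K) y : MvPolynomial σ K →+* L) = Qy y q l := by
  unfold H965.Qp Qy
  rw [Polynomial.map_prod]
  refine Finset.prod_congr rfl fun j _ => ?_
  simp

omit [DecidableEq σ] in
theorem aeval_sum (y : σ → L) (P : (MvPolynomial σ K)[X]) :
    MvPolynomial.aeval (R := K) y (P.sum fun n a => a * (MvPolynomial.C (((n : K) + 1)⁻¹) *
      ∑ j, MvPolynomial.X j ^ (n + 1))) =
      S y (P.map (MvPolynomial.aeval (R := K) y : MvPolynomial σ K →+* L)) := by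
  induction P using Polynomial.induction_on' with
  | add p r hp hr =>
    rw [Polynomial.sum_add_index _ _ _ (by intros; simp) (by intros; ring), map_add, hp, hr,
      Polynomial.map_add, map_add]
  | monomial n a =>
    rw [Polynomial.sum_monomial_index _ _ (by simp), Polynomial.map_monomial, S_monomial]
    simp [map_inv₀, map_add, map_natCast, map_one]

theorem aeval_pp (y : σ → L) (q : ℕ) (l : σ) :
    MvPolynomial.aeval (R := K) y (H965.pp K q l) = S y (Qy y q l) := by
  rw [← map_Qp (K := K), ← aeval_sum]; rfl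

/-- Block ZER. -/
theorem zer (K : Type) [Field K] [CharZero K] (σ : Type) [Fintype σ] [DecidableEq σ] :
    H965.ZerStmt K σ := by
  intro q hq A j
  set I : Ideal (MvPolynomial σ K) :=
    Ideal.span ({f | ∃ l ∈ A, f = H965.pp K q l} ∪ {f | ∃ l, l ∉ A ∧ f = MvPolynomial.X l}) with hI
  change (∃ n : ℕ, (MvPolynomial.X j : MvPolynomial σ K) ^ n ∈ I)
  have hmem : (MvPolynomial.X j : MvPolynomial σ K) ∈ I.radical := by
    rw [← MvPolynomial.vanishingIdeal_zeroLocus_eq_radical (K := AlgebraicClosure K)]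
    rw [MvPolynomial.mem_vanishingIdeal_iff]
    intro y hy
    rw [MvPolynomial.mem_zeroLocus_iff] at hy
    rw [MvPolynomial.aeval_X]
    classical
    have : CharZero (AlgebraicClosure K) := charZero_of_injective_algebraMap
      (FaithfulSMul.algebraMap_injective K (AlgebraicClosure K))
    refine no_common_zero hq A (fun l hl => ?_) (fun l hl => ?_) j
    · rw [← aeval_pp (K := K)]
      exact hy _ (Ideal.subset_span (Or.inl ⟨l, hl, rfl⟩))
    · have := hy (MvPolynomial.X l) (Ideal.subset_span (Or.inr ⟨l, hl, rfl⟩))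
      rwa [MvPolynomial.aeval_X] at this
  exact hmem

end main

end Vale.Agent.P181.H648
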